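import Vale.Agent.P296.Final
import Vale.Agent.P296.Bdl.B1

namespace Vale.Agent.Results.P296.Main

open Vale.Agent.P296.Final

/-- **Griffiths' positivity conjecture is false**: on the abelian surface `ℂ²/ℤ[i]²` there is an
ample holomorphic vector bundle of rank two which carries no smooth Hermitian metric with strictly
Griffiths positive Chern curvature. -/
theorem result : ∃ E : Bundle gauss 2, E.IsAmple ∧ ∀ H : Metric E, ¬ H.GriffithsPositive := by
  obtain ⟨ε, h0, h⟩ := Vale.Agent.P296.bundle_no_griffiths
  exact Vale.Agent.P296.Transfer.final_of (Vale.Agent.P296.bundle ε h0)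
    (Vale.Agent.P296.bundle_isAmple h0) (h ε h0 le_rfl)

end Vale.Agent.Results.P296.Main
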